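import Vale.Agent.Lib.P347.FinalL

/-!
# P347: the sampling exponent is at most `1/4`, third formulation

The algorithm is an adapted map (its `i`-th query point may depend on the answers before `i` only), its
randomness is one uniform random real, and the exponent is the infimum of all `γ` such that
`d ^ γ` queries suffice for all large `d`.
-/

open MeasureTheory

namespace Vale.Agent.Results.P347.OneSeedSampler

/-- Euclidean space. -/
abbrev Rd (d : ℕ) := EuclideanSpace ℝ (Fin d)

/-- The Hessian form `v ↦ ⟨v, ∇²V(x) v⟩`: the derivative at `x` in the direction `v` of the function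
`y ↦ ⟨∇V(y), v⟩`. -/
noncomputable def hess {d : ℕ} (V : Rd d → ℝ) (x v : Rd d) : ℝ :=
  fderiv ℝ (fun y => inner ℝ (gradient V y) v) x v

/-- The class `𝒱_d`: `V` is `C²`, `V 0 = 0`, `∇V 0 = 0`, and `|v|² ≤ ⟨v, ∇²V(x) v⟩ ≤ 2 |v|²` for all
`x` and `v`. -/
def IsPotential {d : ℕ} (V : Rd d → ℝ) : Prop :=
  ContDiff ℝ 2 V ∧ V 0 = 0 ∧ gradient V 0 = 0 ∧
    ∀ x v : Rd d, ‖v‖ ^ 2 ≤ hess V x v ∧ hess V x v ≤ 2 * ‖v‖ ^ 2

/-- The measure with density `e^{-V}` with respect to Lebesgue measure. -/
noncomputable def expNeg {d : ℕ} (V : Rd d → ℝ) : Measure (Rd d) :=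
  volume.withDensity fun x => ENNReal.ofReal (Real.exp (-V x))

/-- The target `π_V`: the measure with density `e^{-V}`, divided by its total mass. -/
noncomputable def target {d : ℕ} (V : Rd d → ℝ) : Measure (Rd d) :=
  (expNeg V Set.univ)⁻¹ • expNeg V

/-- Total variation distance: the supremum of `|μ B - η B|` over the measurable sets `B`. -/
noncomputable def tv {d : ℕ} (μ η : Measure (Rd d)) : ℝ :=
  ⨆ B : {B : Set (Rd d) // MeasurableSet B}, |μ.real B - η.real B|

/-- A randomised adaptive algorithm with `q` queries.  For the random real `u` in `[0, 1]` and the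
answers `a 0, ..., a (q - 1)` the `i`-th query point is `point (u, a) i`; it depends only on `u`
and on the answers `a j` with `j < i`.  The output is `out (u, a)`. -/
structure Alg (d q : ℕ) where
  point : unitInterval × (Fin q → ℝ × Rd d) → Fin q → Rd d
  out : unitInterval × (Fin q → ℝ × Rd d) → Rd d
  measurable_point : Measurable point
  measurable_out : Measurable out
  adapted : ∀ u a b i, (∀ j, j < i → a j = b j) → point (u, a) i = point (u, b) i

/-- `a u` are the answers which the algorithm gets from the oracle of `V` when its random real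
is `u`: the `i`-th answer consists of the value and the gradient of `V` at the `i`-th query point. -/
def Alg.Run {d q : ℕ} (A : Alg d q) (V : Rd d → ℝ) (a : unitInterval → Fin q → ℝ × Rd d) : Prop :=
  ∀ u i, a u i = (V (A.point (u, a u) i), gradient V (A.point (u, a u) i))

/-- The algorithm works: for every `V` of the class the answers `a` obtained from the oracle exist, are
unique, and, with the random real uniform on `[0, 1]`, the law of the output is within total
variation distance `1 / 10` of `π_V`. -/
def Alg.Works {d q : ℕ} (A : Alg d q) : Prop :=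
  ∀ V : Rd d → ℝ, IsPotential V → ∃ a : unitInterval → Fin q → ℝ × Rd d,
    A.Run V a ∧ (∀ b, A.Run V b → b = a) ∧
    tv ((volume : Measure unitInterval).map fun u => A.out (u, a u)) (target V) ≤ 1 / 10

/-- The exponents `γ ≥ 0` such that `d ^ γ` queries suffice in all large dimensions `d`. -/
def exponents : Set ℝ :=
  {γ : ℝ | 0 ≤ γ ∧ ∀ᶠ d : ℕ in Filter.atTop, ∃ q : ℕ, (q : ℝ) ≤ (d : ℝ) ^ γ ∧
    ∃ A : Alg d q, A.Works}

open Vale.Agent.P347 in
private theorem potential_of {d : ℕ} {V : Rd d → ℝ} (h : IsPotential V) : Potential d V := by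
  obtain ⟨h2, h0, hg, hH⟩ := h
  have hgr : ∀ v : Rd d, (fun y => inner ℝ (gradient V y) v) = fun y => fderiv ℝ V y v := by
    intro v
    funext y
    exact InnerProductSpace.toDual_symm_apply
  have key : ∀ x v : Rd d,
      iteratedDeriv 2 (fun t : ℝ => V (x + t • v)) 0 = hess V x v := by
    intro x v
    have hl : ∀ t : ℝ, HasDerivAt (fun t : ℝ => x + t • v) v t := by
      intro t
      have := ((hasDerivAt_id t).smul_const v).const_add x
      simpa using this
    have hd1 : Differentiable ℝ V := h2.differentiable (by norm_num)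
    have hd2 : Differentiable ℝ (fun y => fderiv ℝ V y v) := by
      have h : Differentiable ℝ (fderiv ℝ V) :=
        (h2.fderiv_right (m := 1) (by norm_num)).differentiable (by norm_num)
      intro y
      exact (h y).clm_apply (differentiableAt_const v)
    have e1 : deriv (fun t : ℝ => V (x + t • v)) = fun t => fderiv ℝ V (x + t • v) v := by
      funext t
      exact ((hd1 _).hasFDerivAt.comp_hasDerivAt t (hl t)).deriv
    have h3 := (hd2 (x + (0 : ℝ) • v)).hasFDerivAt.comp_hasDerivAt (0 : ℝ) (hl 0)
    change HasDerivAt (fun t : ℝ => fderiv ℝ V (x + t • v) v)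
      (fderiv ℝ (fun y => fderiv ℝ V y v) (x + (0 : ℝ) • v) v) 0 at h3
    rw [iteratedDeriv_succ, iteratedDeriv_one, e1, h3.deriv, zero_smul, add_zero, hess, hgr v]
  exact ⟨h2, h0, hg, fun x v => (key x v).symm ▸ (hH x v).1, fun x v => (key x v).symm ▸ (hH x v).2⟩

private theorem oracle_measurable {d : ℕ} {V : Rd d → ℝ} (h2 : ContDiff ℝ 2 V) :
    Measurable (Vale.Agent.P347.oracle V) := by
  have h1 : Continuous (fderiv ℝ V) := h2.continuous_fderiv (by norm_num)
  have h3 : Continuous (gradient V) :=
    (InnerProductSpace.toDual ℝ (Rd d)).symm.continuous.comp h1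
  exact h2.continuous.measurable.prodMk h3.measurable

open Vale.Agent.P347 in
private theorem hist_measurable {d q : ℕ} (A : Algo d q) {o : EuclideanSpace ℝ (Fin d) → Ans d}
    (ho : Measurable o) (n : ℕ) : Measurable fun s => A.hist o s n := by
  induction n with
  | zero =>
    have : (fun s => A.hist o s 0) = fun _ => Fin.elim0 := rfl
    rw [this]
    exact measurable_const
  | succ n ih =>
    rw [measurable_pi_iff]
    intro i
    refine Fin.lastCases ?_ (fun j => ?_) i
    · have : (fun s => A.hist o s (n + 1) (Fin.last n)) =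
          fun s => o (A.query n (s, A.hist o s n)) := by
        funext s
        show Fin.snoc (α := fun _ => Ans d) (A.hist o s n) _ (Fin.last n) = _
        rw [Fin.snoc_last]
      rw [this]
      exact ho.comp ((A.query_meas n).comp (measurable_id.prodMk ih))
    · have : (fun s => A.hist o s (n + 1) j.castSucc) = fun s => A.hist o s n j := by
        funext s
        show Fin.snoc (α := fun _ => Ans d) (A.hist o s n) _ (Fin.castSucc j) = _
        rw [Fin.snoc_castSucc]
      rw [this]
      exact (measurable_pi_apply j).comp ih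

open Vale.Agent.P347 in
private theorem hist_le {d q : ℕ} (A : Algo d q) (o : EuclideanSpace ℝ (Fin d) → Ans d)
    (s : Seed) {m n : ℕ} (h : m ≤ n) (j : Fin m) :
    A.hist o s n ⟨j, j.2.trans_le h⟩ = A.hist o s m j := by
  induction n, h using Nat.le_induction with
  | base => rfl
  | succ n hn ih =>
    rw [← ih]
    show Fin.snoc (α := fun _ => Ans d) (A.hist o s n) _ (Fin.castSucc ⟨j, j.2.trans_le hn⟩) = _
    rw [Fin.snoc_castSucc]

open Vale.Agent.P347 in
private theorem hist_rec {d q : ℕ} (A : Algo d q) (o : EuclideanSpace ℝ (Fin d) → Ans d)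
    (s : Seed) (i : Fin q) : A.hist o s q i =
      o (A.query i (s, fun j : Fin i => A.hist o s q ⟨j, j.2.trans i.2⟩)) := by
  have h1 : A.hist o s q i = A.hist o s (i + 1) (Fin.last i) :=
    hist_le A o s (Nat.succ_le_of_lt i.2) (Fin.last i)
  have h2 : (fun j : Fin i => A.hist o s q ⟨j, j.2.trans i.2⟩) = A.hist o s i := by
    funext j
    exact hist_le A o s i.2.le j
  have h3 : A.hist o s (i + 1) (Fin.last i) = o (A.query i (s, A.hist o s i)) := by
    show Fin.snoc (α := fun _ => Ans d) (A.hist o s i) _ (Fin.last i) = _
    rw [Fin.snoc_last]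
  rw [h1, h2, h3]

/-- answers are determined by adaptedness -/
private theorem run_unique {d q : ℕ} (A : Alg d q) (V : Rd d → ℝ)
    {a b : unitInterval → Fin q → ℝ × Rd d} (ha : A.Run V a) (hb : A.Run V b) : a = b := by
  funext u
  have key : ∀ n : ℕ, ∀ i : Fin q, (i : ℕ) < n → a u i = b u i := by
    intro n
    induction n with
    | zero => intro i hi; exact absurd hi (Nat.not_lt_zero _)
    | succ n ih =>
      intro i hi
      have h : A.point (u, a u) i = A.point (u, b u) i :=
        A.adapted u (a u) (b u) i fun j hj => ih j (lt_of_lt_of_le hj (Nat.lt_succ_iff.1 hi))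
      rw [ha u i, hb u i, h]
  funext i
  exact key (i + 1) i (Nat.lt_succ_self _)

private theorem target_eq {d : ℕ} (V : Rd d → ℝ) (hV : Continuous V) :
    target V = Vale.Agent.P347.gibbs V := by
  unfold target Vale.Agent.P347.gibbs
  have hm : Measurable fun x : Rd d => ENNReal.ofReal (Real.exp (-V x)) :=
    (Real.continuous_exp.comp hV.neg).measurable.ennreal_ofReal
  by_cases hi : Integrable (fun x : Rd d => Real.exp (-V x)) volume
  · have hZ : 0 < ∫ x : Rd d, Real.exp (-V x) := by
      rw [integral_pos_iff_support_of_nonneg (fun x => (Real.exp_pos _).le) hi]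
      have : Function.support (fun x : Rd d => Real.exp (-V x)) = Set.univ := by
        ext x
        simp [Real.exp_ne_zero]
      rw [this]
      exact Measure.measure_univ_pos.2 (NeZero.ne _)
    have hu : expNeg V Set.univ = ENNReal.ofReal (∫ x : Rd d, Real.exp (-V x)) := by
      unfold expNeg
      rw [withDensity_apply _ MeasurableSet.univ, Measure.restrict_univ,
        ofReal_integral_eq_lintegral_ofReal hi (Filter.Eventually.of_forall
          fun x => (Real.exp_pos _).le)]
    ext B hB
    rw [Measure.smul_apply, hu, expNeg, withDensity_apply _ hB, tilted_apply' _ _ hB, smul_eq_mul,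
      ← lintegral_const_mul _ hm]
    refine lintegral_congr fun x => ?_
    rw [ENNReal.ofReal_div_of_pos hZ, ENNReal.div_eq_inv_mul]
  · have hu : expNeg V Set.univ = ⊤ := by
      unfold expNeg
      rw [withDensity_apply _ MeasurableSet.univ, Measure.restrict_univ]
      by_contra h
      apply hi
      refine ⟨(Real.continuous_exp.comp hV.neg).aestronglyMeasurable, ?_⟩
      rw [hasFiniteIntegral_iff_ofReal (Filter.Eventually.of_forall fun x => (Real.exp_pos _).le)]
      exact lt_top_iff_ne_top.2 h
    rw [hu, ENNReal.inv_top, zero_smul, tilted_of_not_integrable hi]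

open Vale.Agent.P347 in
private theorem works_of {d q : ℕ} (A : Algo d q) (hA : A.Samples) : ∃ B : Alg d q, B.Works := by
  have : IsProbabilityMeasure seedLaw := by
    unfold seedLaw
    infer_instance
  obtain ⟨f, hf, hfm⟩ := Measure.exists_measurable_map_eq seedLaw
  let B : Alg d q :=
    { point := fun p i => A.query i (f p.1, fun j : Fin i => p.2 ⟨j, j.2.trans i.2⟩)
      out := fun p => A.out (f p.1, p.2)
      measurable_point := by
        rw [measurable_pi_iff]
        intro i
        refine (A.query_meas i).comp ((hf.comp measurable_fst).prodMk ?_)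
        rw [measurable_pi_iff]
        intro j
        exact (measurable_pi_apply _).comp measurable_snd
      measurable_out := A.out_meas.comp ((hf.comp measurable_fst).prodMk measurable_snd)
      adapted := by
        intro u a b i h
        have : (fun j : Fin i => a ⟨j, j.2.trans i.2⟩) = fun j : Fin i => b ⟨j, j.2.trans i.2⟩ :=
          funext fun j => h _ j.2
        simp only [this] }
  refine ⟨B, fun V hV => ?_⟩
  have hrun : B.Run V (fun u => A.hist (oracle V) (f u) q) := by
    intro u i
    exact hist_rec A (oracle V) (f u) i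
  refine ⟨fun u => A.hist (oracle V) (f u) q, hrun, fun b hb => run_unique B V hb hrun, ?_⟩
  have hlaw : (volume : Measure unitInterval).map
      (fun u => B.out (u, A.hist (oracle V) (f u) q)) = A.law V := by
    unfold Algo.law
    rw [← hfm, Measure.map_map ?_ hf]
    · rfl
    · exact A.out_meas.comp (measurable_id.prodMk (hist_measurable A (oracle_measurable hV.1) q))
  show tv ((volume : Measure unitInterval).map
      (fun u => B.out (u, A.hist (oracle V) (f u) q))) (target V) ≤ 1 / 10
  rw [hlaw, target_eq V hV.1.continuous]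
  have : Nonempty {B : Set (Rd d) // MeasurableSet B} := ⟨⟨∅, MeasurableSet.empty⟩⟩
  exact ciSup_le fun S => hA V (potential_of hV) S.1 S.2

/-- The query complexity of sampling from `e^{-V}`, `I ≤ ∇²V ≤ 2I`, in dimension `d` with an exact
first order oracle, up to total variation `1 / 10`, is at most `d ^ γ` for every `γ > 1/4` and all
large `d`; the infimum of all such exponents `γ` is at most `1/4`. -/
theorem result : (∀ γ : ℝ, 1 / 4 < γ → γ ∈ exponents) ∧ sInf exponents ≤ 1 / 4 := by
  have h1 : ∀ γ : ℝ, 1 / 4 < γ → γ ∈ exponents := by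
    intro γ hγ
    refine ⟨by linarith, ?_⟩
    filter_upwards [Vale.Agent.P347.sampler (show (0 : ℝ) < γ - 1 / 4 by linarith)] with d hd
    obtain ⟨q, hq, A, hA⟩ := hd
    rw [show (1 / 4 + (γ - 1 / 4) : ℝ) = γ by ring] at hq
    exact ⟨q, hq, works_of A hA⟩
  refine ⟨h1, le_of_forall_pos_le_add fun ε hε => ?_⟩
  exact csInf_le ⟨0, fun γ hγ => hγ.1⟩ (h1 _ (by linarith))

end Vale.Agent.Results.P347.OneSeedSampler
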