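import Vale.Agent.Lib.P347.FinalL

open Filter

namespace Vale.Agent.Results.P347.QuarterExponent

open Vale.Agent.P347

/-- The dimension exponent of sampling well-conditioned log-concave laws with an exact first order
oracle is at most `1/4`; more precisely for every `ε > 0` and all large `d` there is a randomised
adaptive algorithm with at most `d ^ (1 / 4 + ε)` queries whose output is within total variation
`1 / 10` of the target, for every potential of the class. -/
theorem result :
    gammaStar ≤ ((1 / 4 : ℝ) : EReal) ∧
      ∀ ε : ℝ, 0 < ε → ∀ᶠ d : ℕ in atTop,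
        ∃ q : ℕ, (q : ℝ) ≤ (d : ℝ) ^ (1 / 4 + ε) ∧ ∃ A : Algo d q, A.Samples :=
  ⟨gammaStar_le, fun _ hε => sampler hε⟩

end Vale.Agent.Results.P347.QuarterExponent
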