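import Vale.Agent.Lib.P347.FinalL

/-!
# P347: a sampler with `d ^ (1/4 + ε)` first order queries, second formulation
-/

open MeasureTheory

namespace Vale.Agent.Results.P347.UniformSampler

/-- Euclidean space. -/
abbrev Rd (d : ℕ) := EuclideanSpace ℝ (Fin d)

/-- The derivative of `V` at `x` in the direction `v`. -/
noncomputable def dir {d : ℕ} (v : Rd d) (V : Rd d → ℝ) (x : Rd d) : ℝ := fderiv ℝ V x v

/-- The class: `V` in `C²`, `V 0 = 0`, `∇V(0) = 0`, `I ≤ ∇²V ≤ 2 I` everywhere (the Hessian form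
at `x` in the direction `v` is `∂_v ∂_v V (x)`). -/
def InClass (d : ℕ) (V : Rd d → ℝ) : Prop :=
  ContDiff ℝ 2 V ∧ V 0 = 0 ∧ gradient V 0 = 0 ∧
    ∀ x v : Rd d, ‖v‖ ^ 2 ≤ dir v (dir v V) x ∧ dir v (dir v V) x ≤ 2 * ‖v‖ ^ 2

/-- `a 0, a 1, …` are the answers `(V x, ∇V x)` to the queries `x = query i (a 0, …, a (i - 1))`. -/
def Answers {d q : ℕ} (V : Rd d → ℝ) (query : ∀ n : ℕ, (Fin n → ℝ × Rd d) → Rd d)
    (a : Fin q → ℝ × Rd d) : Prop :=
  ∀ (i : Fin q) (x : Rd d), x = query i (fun j : Fin i => a ⟨j, j.2.trans i.2⟩) →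
    a i = (V x, gradient V x)

/-- The law of `X` (a function of independent uniform reals `ω 0, ω 1, …` in `[0, 1]`) is within
total variation distance `1 / 10` of the law with density `e^{-V} / ∫ e^{-V}`. -/
def CloseToGibbs {d : ℕ} (V : Rd d → ℝ) (X : (ℕ → unitInterval) → Rd d) : Prop :=
  ∀ B : Set (Rd d), MeasurableSet B →
    |((Measure.infinitePi fun _ : ℕ => (volume : Measure unitInterval)).map X).real B -
      (∫ x in B, Real.exp (-V x)) / ∫ x, Real.exp (-V x)| ≤ 1 / 10

open Vale.Agent.P347 in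
private theorem potential_of {d : ℕ} {V : Rd d → ℝ} (h2 : ContDiff ℝ 2 V)
    (h0 : V 0 = 0) (hg : gradient V 0 = 0)
    (hH : ∀ x v : Rd d, ‖v‖ ^ 2 ≤ dir v (dir v V) x ∧ dir v (dir v V) x ≤ 2 * ‖v‖ ^ 2) :
    Potential d V := by
  have key : ∀ x v : Rd d,
      iteratedDeriv 2 (fun t : ℝ => V (x + t • v)) 0 = dir v (dir v V) x := by
    intro x v
    have hl : ∀ t : ℝ, HasDerivAt (fun t : ℝ => x + t • v) v t := by
      intro t
      have := ((hasDerivAt_id t).smul_const v).const_add x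
      simpa using this
    have hd1 : Differentiable ℝ V := h2.differentiable (by norm_num)
    have hd2 : Differentiable ℝ (dir v V) := by
      have h : Differentiable ℝ (fderiv ℝ V) :=
        (h2.fderiv_right (m := 1) (by norm_num)).differentiable (by norm_num)
      intro y
      show DifferentiableAt ℝ (fun y => fderiv ℝ V y v) y
      exact (h y).clm_apply (differentiableAt_const v)
    have e1 : deriv (fun t : ℝ => V (x + t • v)) = fun t => dir v V (x + t • v) := by
      funext t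
      exact ((hd1 _).hasFDerivAt.comp_hasDerivAt t (hl t)).deriv
    have hf : HasFDerivAt (dir v V) (fderiv ℝ (dir v V) (x + (0 : ℝ) • v)) (x + (0 : ℝ) • v) :=
      (hd2 _).hasFDerivAt
    have h3 := hf.comp_hasDerivAt (0 : ℝ) (hl 0)
    change HasDerivAt (fun t : ℝ => dir v V (x + t • v))
      (dir v (dir v V) (x + (0 : ℝ) • v)) 0 at h3
    rw [iteratedDeriv_succ, iteratedDeriv_one, e1, h3.deriv, zero_smul, add_zero]
  exact ⟨h2, h0, hg, fun x v => (key x v).symm ▸ (hH x v).1, fun x v => (key x v).symm ▸ (hH x v).2⟩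

open Vale.Agent.P347 in
private theorem hist_le {d q : ℕ} (A : Algo d q) (o : EuclideanSpace ℝ (Fin d) → Ans d)
    (s : Seed) {m n : ℕ} (h : m ≤ n) (j : Fin m) :
    A.hist o s n ⟨j, j.2.trans_le h⟩ = A.hist o s m j := by
  induction n, h using Nat.le_induction with
  | base => rfl
  | succ n hn ih =>
    rw [← ih]
    show Fin.snoc (α := fun _ => Ans d) (A.hist o s n) _ (Fin.castSucc ⟨j, j.2.trans_le hn⟩) = _
    rw [Fin.snoc_castSucc]

open Vale.Agent.P347 in
private theorem hist_last {d q : ℕ} (A : Algo d q) (o : EuclideanSpace ℝ (Fin d) → Ans d)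
    (s : Seed) (n : ℕ) : A.hist o s (n + 1) (Fin.last n) = o (A.query n (s, A.hist o s n)) := by
  show Fin.snoc (α := fun _ => Ans d) (A.hist o s n) _ (Fin.last n) = _
  rw [Fin.snoc_last]

open Vale.Agent.P347 in
private theorem hist_rec {d q : ℕ} (A : Algo d q) (o : EuclideanSpace ℝ (Fin d) → Ans d)
    (s : Seed) (i : Fin q) : A.hist o s q i =
      o (A.query i (s, fun j : Fin i => A.hist o s q ⟨j, j.2.trans i.2⟩)) := by
  have h1 : A.hist o s q i = A.hist o s (i + 1) (Fin.last i) :=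
    hist_le A o s (Nat.succ_le_of_lt i.2) (Fin.last i)
  have h2 : (fun j : Fin i => A.hist o s q ⟨j, j.2.trans i.2⟩) = A.hist o s i := by
    funext j
    exact hist_le A o s i.2.le j
  rw [h1, h2, hist_last]

/-- For every `ε > 0` and all large `d` there are `q ≤ d ^ (1/4 + ε)`, measurable query maps
`query 0, query 1, …` and a measurable output map `out` such that, with `ω` a sequence of
independent uniform random reals in `[0, 1]`, for every `V` of the class the answers `a ω i`,
`i < q`, to the queries give an output `out (ω, a ω)` whose law is close to the Gibbs law. -/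
theorem result : ∀ ε : ℝ, 0 < ε → ∃ d₀ : ℕ, ∀ d : ℕ, d₀ ≤ d → ∃ q : ℕ,
    (q : ℝ) ≤ (d : ℝ) ^ (1 / 4 + ε) ∧
    ∃ (query : ∀ n : ℕ, (ℕ → unitInterval) × (Fin n → ℝ × Rd d) → Rd d)
      (out : (ℕ → unitInterval) × (Fin q → ℝ × Rd d) → Rd d),
      (∀ n, Measurable (query n)) ∧ Measurable out ∧
      ∀ V : Rd d → ℝ, InClass d V →
        ∃ a : (ℕ → unitInterval) → Fin q → ℝ × Rd d,
          (∀ ω, Answers V (fun n b => query n (ω, b)) (a ω)) ∧
          CloseToGibbs V fun ω => out (ω, a ω) := by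
  intro ε hε
  obtain ⟨d₀, hd₀⟩ := Filter.eventually_atTop.1 (Vale.Agent.P347.sampler hε)
  refine ⟨d₀, fun d hd => ?_⟩
  obtain ⟨q, hq, A, hA⟩ := hd₀ d hd
  refine ⟨q, hq, A.query, A.out, A.query_meas, A.out_meas, fun V ⟨h2, h0, hg, hH⟩ => ?_⟩
  have hV := potential_of h2 h0 hg hH
  refine ⟨fun ω => A.hist (Vale.Agent.P347.oracle V) ω q, ?_, fun B hB => ?_⟩
  · rintro ω i x rfl
    exact hist_rec A (Vale.Agent.P347.oracle V) ω i
  have h := hA V hV B hB
  have e : (Vale.Agent.P347.gibbs V).real B =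
      (∫ x in B, Real.exp (-V x)) / ∫ x, Real.exp (-V x) := by
    rw [Vale.Agent.P347.gibbs, Measure.real, tilted_apply_eq_ofReal_integral' _ hB,
      ENNReal.toReal_ofReal (integral_nonneg fun x => by positivity), integral_div]
  rw [e] at h
  exact h

end Vale.Agent.Results.P347.UniformSampler
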